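import Mathlib

/-!
Pure type systems (PTS) with de Bruijn indices.
A specification is given by a type `S` of sorts, a relation `Ax : S → S → Prop` (axioms)
and a relation `Rl : S → S → S → Prop` (rules).
-/

namespace Vale.Agent.Lib.P340

universe u

/-- Pseudo-terms over a type `S` of sorts, with de Bruijn indices:
`lam A M` is the abstraction with domain `A` and body `M`, `pi A B` is the product. -/
inductive Tm (S : Type u) : Type u
  | var : ℕ → Tm S
  | sort : S → Tm S
  | app : Tm S → Tm S → Tm S
  | lam : Tm S → Tm S → Tm S
  | pi : Tm S → Tm S → Tm S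

namespace Tm

variable {S : Type u}

/-- Shift by one all variables with index at least `c`. -/
def lift (c : ℕ) : Tm S → Tm S
  | var n => if n < c then var n else var (n + 1)
  | sort s => sort s
  | app M N => app (lift c M) (lift c N)
  | lam A M => lam (lift c A) (lift (c + 1) M)
  | pi A B => pi (lift c A) (lift (c + 1) B)

/-- `subst k N M` substitutes `N` for the variable with index `k` in `M`
(and lowers the variables above `k`). -/
def subst : ℕ → Tm S → Tm S → Tm S
  | k, N, var n => if n < k then var n else if n = k then N else var (n - 1)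
  | _, _, sort s => sort s
  | k, N, app M P => app (subst k N M) (subst k N P)
  | k, N, lam A M => lam (subst k N A) (subst (k + 1) (lift 0 N) M)
  | k, N, pi A B => pi (subst k N A) (subst (k + 1) (lift 0 N) B)

end Tm

open Tm

/-- One-step beta reduction: the compatible closure of the beta rule
(reduction is allowed in every subterm, including domains). -/
inductive Beta {S : Type u} : Tm S → Tm S → Prop
  | beta (A M N : Tm S) : Beta (app (lam A M) N) (subst 0 N M)
  | appL {M M' : Tm S} (N : Tm S) : Beta M M' → Beta (app M N) (app M' N)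
  | appR (M : Tm S) {N N' : Tm S} : Beta N N' → Beta (app M N) (app M N')
  | lamL {A A' : Tm S} (M : Tm S) : Beta A A' → Beta (lam A M) (lam A' M)
  | lamR (A : Tm S) {M M' : Tm S} : Beta M M' → Beta (lam A M) (lam A M')
  | piL {A A' : Tm S} (B : Tm S) : Beta A A' → Beta (pi A B) (pi A' B)
  | piR (A : Tm S) {B B' : Tm S} : Beta B B' → Beta (pi A B) (pi A B')

/-- Beta conversion: the equivalence relation generated by one-step beta reduction. -/
def BetaEq {S : Type u} (M N : Tm S) : Prop := Relation.EqvGen Beta M N

/-- The typing judgment of the PTS with axioms `Ax` and rules `Rl`.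
Contexts are lists of types, the head being the most recently declared variable. -/
inductive Typing {S : Type u} (Ax : S → S → Prop) (Rl : S → S → S → Prop) :
    List (Tm S) → Tm S → Tm S → Prop
  | ax {s1 s2 : S} : Ax s1 s2 → Typing Ax Rl [] (sort s1) (sort s2)
  | var {G : List (Tm S)} {A : Tm S} {s : S} :
      Typing Ax Rl G A (sort s) → Typing Ax Rl (A :: G) (var 0) (lift 0 A)
  | weak {G : List (Tm S)} {M B A : Tm S} {s : S} :
      Typing Ax Rl G M B → Typing Ax Rl G A (sort s) →
      Typing Ax Rl (A :: G) (lift 0 M) (lift 0 B)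
  | prod {G : List (Tm S)} {A B : Tm S} {s1 s2 s3 : S} :
      Typing Ax Rl G A (sort s1) → Typing Ax Rl (A :: G) B (sort s2) → Rl s1 s2 s3 →
      Typing Ax Rl G (pi A B) (sort s3)
  | abs {G : List (Tm S)} {A M B : Tm S} {s : S} :
      Typing Ax Rl (A :: G) M B → Typing Ax Rl G (pi A B) (sort s) →
      Typing Ax Rl G (lam A M) (pi A B)
  | app {G : List (Tm S)} {M N A B : Tm S} :
      Typing Ax Rl G M (pi A B) → Typing Ax Rl G N A →
      Typing Ax Rl G (app M N) (subst 0 N B)
  | conv {G : List (Tm S)} {M A B : Tm S} {s : S} :
      Typing Ax Rl G M A → Typing Ax Rl G B (sort s) → BetaEq A B →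
      Typing Ax Rl G M B

/-- An expression is legal if it is the subject or the type of a derivable judgment. -/
def Legal {S : Type u} (Ax : S → S → Prop) (Rl : S → S → S → Prop) (M : Tm S) : Prop :=
  ∃ (G : List (Tm S)) (N : Tm S), Typing Ax Rl G M N ∨ Typing Ax Rl G N M

/-- `M` is beta-normal. -/
def Normal {S : Type u} (M : Tm S) : Prop := ∀ N, ¬ Beta M N

/-- `M` reduces to a beta-normal form. -/
def HasNormalForm {S : Type u} (M : Tm S) : Prop :=
  ∃ N, Relation.ReflTransGen Beta M N ∧ Normal N

/-- `M` starts an infinite beta-reduction sequence. -/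
def HasInfiniteReduction {S : Type u} (M : Tm S) : Prop :=
  ∃ f : ℕ → Tm S, f 0 = M ∧ ∀ n, Beta (f n) (f (n + 1))

/-- The PTS is weakly normalizing: every legal expression has a normal form. -/
def WeaklyNormalizing {S : Type u} (Ax : S → S → Prop) (Rl : S → S → S → Prop) : Prop :=
  ∀ M, Legal Ax Rl M → HasNormalForm M

/-- The PTS is strongly normalizing: no legal expression starts an infinite reduction. -/
def StronglyNormalizing {S : Type u} (Ax : S → S → Prop) (Rl : S → S → S → Prop) : Prop :=
  ∀ M, Legal Ax Rl M → ¬ HasInfiniteReduction M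

end Vale.Agent.Lib.P340
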