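import Vale.Agent.Lib.P340.SortMap

namespace Vale.Agent.Lib.P340

universe u

open Tm

variable {S : Type u}

theorem Typing.mono {Ax Ax' : S → S → Prop} {Rl Rl' : S → S → S → Prop}
    (hA : ∀ s1 s2, Ax s1 s2 → Ax' s1 s2)
    (hR : ∀ s1 s2 s3, Rl s1 s2 s3 → Rl' s1 s2 s3)
    {G : List (Tm S)} {M B : Tm S} (h : Typing Ax Rl G M B) :
    Typing Ax' Rl' G M B := by
  induction h with
  | ax h => exact Typing.ax (hA _ _ h)
  | var _ ih => exact Typing.var ih
  | weak _ _ ih1 ih2 => exact Typing.weak ih1 ih2
  | prod _ _ h3 ih1 ih2 => exact Typing.prod ih1 ih2 (hR _ _ _ h3)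
  | abs _ _ ih1 ih2 => exact Typing.abs ih1 ih2
  | app _ _ ih1 ih2 => exact Typing.app ih1 ih2
  | conv _ _ h3 ih1 ih2 => exact Typing.conv ih1 ih2 h3

/-- Every derivation uses finitely many axioms and rules. -/
theorem Typing.finite_support {Ax : S → S → Prop} {Rl : S → S → S → Prop}
    {G : List (Tm S)} {M B : Tm S} (h : Typing Ax Rl G M B) :
    ∃ (la : List (S × S)) (lr : List (S × S × S)),
      (∀ p ∈ la, Ax p.1 p.2) ∧ (∀ p ∈ lr, Rl p.1 p.2.1 p.2.2) ∧
      Typing (fun a b => (a, b) ∈ la) (fun a b c => (a, b, c) ∈ lr) G M B := by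
  induction h with
  | @ax s1 s2 h =>
    refine ⟨[(s1, s2)], [], ?_, ?_, Typing.ax (by simp)⟩
    · intro p hp
      simp only [List.mem_singleton] at hp
      subst hp
      exact h
    · intro p hp
      simp at hp
  | var _ ih =>
    obtain ⟨la, lr, h1, h2, h3⟩ := ih
    exact ⟨la, lr, h1, h2, Typing.var h3⟩
  | weak _ _ ih1 ih2 =>
    obtain ⟨la, lr, h1, h2, h3⟩ := ih1
    obtain ⟨la', lr', h1', h2', h3'⟩ := ih2
    refine ⟨la ++ la', lr ++ lr', ?_, ?_, ?_⟩
    · intro p hp
      rcases List.mem_append.mp hp with hp | hp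
      · exact h1 p hp
      · exact h1' p hp
    · intro p hp
      rcases List.mem_append.mp hp with hp | hp
      · exact h2 p hp
      · exact h2' p hp
    · exact Typing.weak
        (h3.mono (fun a b hab => List.mem_append_left _ hab)
          (fun a b c habc => List.mem_append_left _ habc))
        (h3'.mono (fun a b hab => List.mem_append_right _ hab)
          (fun a b c habc => List.mem_append_right _ habc))
  | @prod G A B s1 s2 s3 _ _ hr ih1 ih2 =>
    obtain ⟨la, lr, h1, h2, h3⟩ := ih1
    obtain ⟨la', lr', h1', h2', h3'⟩ := ih2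
    refine ⟨la ++ la', (s1, s2, s3) :: (lr ++ lr'), ?_, ?_, ?_⟩
    · intro p hp
      rcases List.mem_append.mp hp with hp | hp
      · exact h1 p hp
      · exact h1' p hp
    · intro p hp
      rcases List.mem_cons.mp hp with hp | hp
      · subst hp
        exact hr
      · rcases List.mem_append.mp hp with hp | hp
        · exact h2 p hp
        · exact h2' p hp
    · exact Typing.prod
        (h3.mono (fun a b hab => List.mem_append_left _ hab)
          (fun a b c habc => List.mem_cons_of_mem _ (List.mem_append_left _ habc)))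
        (h3'.mono (fun a b hab => List.mem_append_right _ hab)
          (fun a b c habc => List.mem_cons_of_mem _ (List.mem_append_right _ habc)))
        (by simp)
  | abs _ _ ih1 ih2 =>
    obtain ⟨la, lr, h1, h2, h3⟩ := ih1
    obtain ⟨la', lr', h1', h2', h3'⟩ := ih2
    refine ⟨la ++ la', lr ++ lr', ?_, ?_, ?_⟩
    · intro p hp
      rcases List.mem_append.mp hp with hp | hp
      · exact h1 p hp
      · exact h1' p hp
    · intro p hp
      rcases List.mem_append.mp hp with hp | hp
      · exact h2 p hp
      · exact h2' p hp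
    · exact Typing.abs
        (h3.mono (fun a b hab => List.mem_append_left _ hab)
          (fun a b c habc => List.mem_append_left _ habc))
        (h3'.mono (fun a b hab => List.mem_append_right _ hab)
          (fun a b c habc => List.mem_append_right _ habc))
  | app _ _ ih1 ih2 =>
    obtain ⟨la, lr, h1, h2, h3⟩ := ih1
    obtain ⟨la', lr', h1', h2', h3'⟩ := ih2
    refine ⟨la ++ la', lr ++ lr', ?_, ?_, ?_⟩
    · intro p hp
      rcases List.mem_append.mp hp with hp | hp
      · exact h1 p hp
      · exact h1' p hp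
    · intro p hp
      rcases List.mem_append.mp hp with hp | hp
      · exact h2 p hp
      · exact h2' p hp
    · exact Typing.app
        (h3.mono (fun a b hab => List.mem_append_left _ hab)
          (fun a b c habc => List.mem_append_left _ habc))
        (h3'.mono (fun a b hab => List.mem_append_right _ hab)
          (fun a b c habc => List.mem_append_right _ habc))
  | conv _ _ hc ih1 ih2 =>
    obtain ⟨la, lr, h1, h2, h3⟩ := ih1
    obtain ⟨la', lr', h1', h2', h3'⟩ := ih2
    refine ⟨la ++ la', lr ++ lr', ?_, ?_, ?_⟩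
    · intro p hp
      rcases List.mem_append.mp hp with hp | hp
      · exact h1 p hp
      · exact h1' p hp
    · intro p hp
      rcases List.mem_append.mp hp with hp | hp
      · exact h2 p hp
      · exact h2' p hp
    · exact Typing.conv
        (h3.mono (fun a b hab => List.mem_append_left _ hab)
          (fun a b c habc => List.mem_append_left _ habc))
        (h3'.mono (fun a b hab => List.mem_append_right _ hab)
          (fun a b c habc => List.mem_append_right _ habc))
        hc

/-- Every derivation uses at least one axiom. -/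
theorem Typing.exists_axiom {Ax : S → S → Prop} {Rl : S → S → S → Prop}
    {G : List (Tm S)} {M B : Tm S} (h : Typing Ax Rl G M B) : ∃ s1 s2, Ax s1 s2 := by
  induction h with
  | @ax s1 s2 h => exact ⟨s1, s2, h⟩
  | var _ ih => exact ih
  | weak _ _ ih1 _ => exact ih1
  | prod _ _ _ ih1 _ => exact ih1
  | abs _ _ ih1 _ => exact ih1
  | app _ _ ih1 _ => exact ih1
  | conv _ _ _ ih1 _ => exact ih1

/-- A single derivation can be transported to a specification on a finite set of sorts
that embeds into the original one. -/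
theorem Typing.exists_finite {Ax : S → S → Prop} {Rl : S → S → S → Prop}
    {G : List (Tm S)} {M B : Tm S} (h : Typing Ax Rl G M B) :
    ∃ (n : ℕ) (i : Fin n → S) (r : S → Fin n),
      Typing (fun a b => Ax (i a) (i b)) (fun a b c => Rl (i a) (i b) (i c))
        (G.map (Tm.map r)) (Tm.map r M) (Tm.map r B) := by
  classical
  obtain ⟨la, lr, h1, h2, h3⟩ := h.finite_support
  let S0 : Finset S :=
    (la.map Prod.fst).toFinset ∪ (la.map Prod.snd).toFinset ∪
      (lr.map (fun p => p.1)).toFinset ∪ (lr.map (fun p => p.2.1)).toFinset ∪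
      (lr.map (fun p => p.2.2)).toFinset
  obtain ⟨s1, s2, hs⟩ := h3.exists_axiom
  have hs1 : s1 ∈ S0 := by
    simp only [S0, Finset.mem_union, List.mem_toFinset, List.mem_map]
    exact Or.inl (Or.inl (Or.inl (Or.inl ⟨(s1, s2), hs, rfl⟩)))
  have hpos : 0 < S0.card := Finset.card_pos.mpr ⟨s1, hs1⟩
  let e : S0 ≃ Fin S0.card := S0.equivFin
  let i : Fin S0.card → S := fun a => (e.symm a).1
  let r : S → Fin S0.card := fun s => if hs : s ∈ S0 then e ⟨s, hs⟩ else ⟨0, hpos⟩
  have hir : ∀ s, s ∈ S0 → i (r s) = s := by
    intro s hs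
    simp [i, r, hs]
  refine ⟨S0.card, i, r, ?_⟩
  refine Typing.map r ?_ ?_ h3
  · intro a b hab
    have ha : a ∈ S0 := by
      simp only [S0, Finset.mem_union, List.mem_toFinset, List.mem_map]
      exact Or.inl (Or.inl (Or.inl (Or.inl ⟨(a, b), hab, rfl⟩)))
    have hb : b ∈ S0 := by
      simp only [S0, Finset.mem_union, List.mem_toFinset, List.mem_map]
      exact Or.inl (Or.inl (Or.inl (Or.inr ⟨(a, b), hab, rfl⟩)))
    show Ax (i (r a)) (i (r b))
    rw [hir a ha, hir b hb]
    exact h1 (a, b) hab
  · intro a b c habc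
    have ha : a ∈ S0 := by
      simp only [S0, Finset.mem_union, List.mem_toFinset, List.mem_map]
      exact Or.inl (Or.inl (Or.inr ⟨(a, b, c), habc, rfl⟩))
    have hb : b ∈ S0 := by
      simp only [S0, Finset.mem_union, List.mem_toFinset, List.mem_map]
      exact Or.inl (Or.inr ⟨(a, b, c), habc, rfl⟩)
    have hc : c ∈ S0 := by
      simp only [S0, Finset.mem_union, List.mem_toFinset, List.mem_map]
      exact Or.inr ⟨(a, b, c), habc, rfl⟩
    show Rl (i (r a)) (i (r b)) (i (r c))
    rw [hir a ha, hir b hb, hir c hc]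
    exact h2 (a, b, c) habc

/-- The weak-implies-strong normalization statement for all pure type systems reduces to
pure type systems whose set of sorts is `Fin n`. -/
theorem bgk_of_finite
    (hfin : ∀ (n : ℕ) (Ax : Fin n → Fin n → Prop) (Rl : Fin n → Fin n → Fin n → Prop),
      WeaklyNormalizing Ax Rl → StronglyNormalizing Ax Rl)
    (S : Type u) (Ax : S → S → Prop) (Rl : S → S → S → Prop)
    (hwn : WeaklyNormalizing Ax Rl) : StronglyNormalizing Ax Rl := by
  have key : ∀ (G : List (Tm S)) (M B : Tm S), Typing Ax Rl G M B →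
      ¬ HasInfiniteReduction M ∧ ¬ HasInfiniteReduction B := by
    intro G M B h
    obtain ⟨n, i, r, h'⟩ := h.exists_finite
    have hwn' : WeaklyNormalizing (fun a b => Ax (i a) (i b))
        (fun a b c => Rl (i a) (i b) (i c)) := by
      intro M' hM'
      have : Legal Ax Rl (Tm.map i M') :=
        hM'.map i (fun _ _ hab => hab) (fun _ _ _ habc => habc)
      exact (hwn _ this).of_map i
    have hsn' := hfin n _ _ hwn'
    constructor
    · intro hinf
      exact hsn' (Tm.map r M) ⟨_, _, Or.inl h'⟩ (hinf.map r)
    · intro hinf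
      exact hsn' (Tm.map r B) ⟨_, _, Or.inr h'⟩ (hinf.map r)
  intro M hM
  obtain ⟨G, N, h | h⟩ := hM
  · exact (key G M N h).1
  · exact (key G N M h).2

end Vale.Agent.Lib.P340
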