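import Vale.Agent.Lib.P340.Defs

namespace Vale.Agent.Lib.P340

universe u v

open Tm

namespace Tm

variable {S : Type u} {T : Type v}

/-- Rename the sorts of a pseudo-term along `f`. -/
def map (f : S → T) : Tm S → Tm T
  | var n => var n
  | sort s => sort (f s)
  | app M N => app (map f M) (map f N)
  | lam A M => lam (map f A) (map f M)
  | pi A B => pi (map f A) (map f B)

theorem map_lift (f : S → T) (c : ℕ) (M : Tm S) :
    map f (lift c M) = lift c (map f M) := by
  induction M generalizing c with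
  | var n =>
    by_cases h : n < c <;> simp [lift, map, h]
  | sort s => rfl
  | app M N ihM ihN => simp [lift, map, ihM, ihN]
  | lam A M ihA ihM => simp [lift, map, ihA, ihM]
  | pi A B ihA ihB => simp [lift, map, ihA, ihB]

theorem map_subst (f : S → T) (k : ℕ) (N M : Tm S) :
    map f (subst k N M) = subst k (map f N) (map f M) := by
  induction M generalizing k N with
  | var n =>
    by_cases h : n < k
    · simp [subst, map, h]
    · by_cases h2 : n = k <;> simp [subst, map, h, h2]
  | sort s => rfl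
  | app M P ihM ihP => simp [subst, map, ihM, ihP]
  | lam A M ihA ihM => simp [subst, map, ihA, ihM, map_lift]
  | pi A B ihA ihB => simp [subst, map, ihA, ihB, map_lift]

theorem map_map {U : Type*} (g : T → U) (f : S → T) (M : Tm S) :
    map g (map f M) = map (g ∘ f) M := by
  induction M with
  | var n => rfl
  | sort s => rfl
  | app M N ihM ihN => simp [map, ihM, ihN]
  | lam A M ihA ihM => simp [map, ihA, ihM]
  | pi A B ihA ihB => simp [map, ihA, ihB]

end Tm

variable {S : Type u} {T : Type v}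

theorem Beta.map (f : S → T) {M N : Tm S} (h : Beta M N) :
    Beta (Tm.map f M) (Tm.map f N) := by
  induction h with
  | beta A M N =>
    simp only [Tm.map, Tm.map_subst]
    exact Beta.beta _ _ _
  | appL N _ ih => exact Beta.appL _ ih
  | appR M _ ih => exact Beta.appR _ ih
  | lamL M _ ih => exact Beta.lamL _ ih
  | lamR A _ ih => exact Beta.lamR _ ih
  | piL B _ ih => exact Beta.piL _ ih
  | piR A _ ih => exact Beta.piR _ ih

/-- A beta step from a renamed term comes from a beta step of the original term. -/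
theorem Beta.of_map (f : S → T) {M : Tm S} {N' : Tm T} (h : Beta (Tm.map f M) N') :
    ∃ N, Beta M N ∧ Tm.map f N = N' := by
  induction M generalizing N' with
  | var n => cases h
  | sort s => cases h
  | app M P ihM ihP =>
    simp only [Tm.map] at h
    generalize hM : Tm.map f M = M1 at h
    generalize hP : Tm.map f P = P1 at h
    cases h with
    | beta A B _ =>
      cases M with
      | lam A0 B0 =>
        simp only [Tm.map, Tm.lam.injEq] at hM
        obtain ⟨hA, hB⟩ := hM
        refine ⟨subst 0 P B0, Beta.beta _ _ _, ?_⟩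
        rw [Tm.map_subst, hB, hP]
      | var n => simp [Tm.map] at hM
      | sort s => simp [Tm.map] at hM
      | app _ _ => simp [Tm.map] at hM
      | pi _ _ => simp [Tm.map] at hM
    | appL _ h1 =>
      subst hM
      obtain ⟨N, hN, rfl⟩ := ihM h1
      exact ⟨Tm.app N P, Beta.appL _ hN, by simp [Tm.map, hP]⟩
    | appR _ h1 =>
      subst hP
      obtain ⟨N, hN, rfl⟩ := ihP h1
      exact ⟨Tm.app M N, Beta.appR _ hN, by simp [Tm.map, hM]⟩
  | lam A M ihA ihM =>
    simp only [Tm.map] at h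
    cases h with
    | lamL _ h1 =>
      obtain ⟨N, hN, rfl⟩ := ihA h1
      exact ⟨Tm.lam N M, Beta.lamL _ hN, rfl⟩
    | lamR _ h1 =>
      obtain ⟨N, hN, rfl⟩ := ihM h1
      exact ⟨Tm.lam A N, Beta.lamR _ hN, rfl⟩
  | pi A B ihA ihB =>
    simp only [Tm.map] at h
    cases h with
    | piL _ h1 =>
      obtain ⟨N, hN, rfl⟩ := ihA h1
      exact ⟨Tm.pi N B, Beta.piL _ hN, rfl⟩
    | piR _ h1 =>
      obtain ⟨N, hN, rfl⟩ := ihB h1
      exact ⟨Tm.pi A N, Beta.piR _ hN, rfl⟩

theorem BetaEq.map (f : S → T) {M N : Tm S} (h : BetaEq M N) :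
    BetaEq (Tm.map f M) (Tm.map f N) := by
  induction h with
  | rel _ _ h => exact Relation.EqvGen.rel _ _ (h.map f)
  | refl _ => exact Relation.EqvGen.refl _
  | symm _ _ _ ih => exact Relation.EqvGen.symm _ _ ih
  | trans _ _ _ _ _ ih1 ih2 => exact Relation.EqvGen.trans _ _ _ ih1 ih2

/-- Typing is preserved by a renaming of sorts that maps axioms to axioms and rules to rules. -/
theorem Typing.map {Ax : S → S → Prop} {Rl : S → S → S → Prop}
    {Ax' : T → T → Prop} {Rl' : T → T → T → Prop} (f : S → T)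
    (hA : ∀ s1 s2, Ax s1 s2 → Ax' (f s1) (f s2))
    (hR : ∀ s1 s2 s3, Rl s1 s2 s3 → Rl' (f s1) (f s2) (f s3))
    {G : List (Tm S)} {M B : Tm S} (h : Typing Ax Rl G M B) :
    Typing Ax' Rl' (G.map (Tm.map f)) (Tm.map f M) (Tm.map f B) := by
  induction h with
  | ax h => exact Typing.ax (hA _ _ h)
  | var _ ih =>
    simp only [List.map_cons, Tm.map_lift]
    exact Typing.var ih
  | weak _ _ ih1 ih2 =>
    simp only [List.map_cons, Tm.map_lift]
    exact Typing.weak ih1 ih2
  | prod _ _ h3 ih1 ih2 =>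
    exact Typing.prod ih1 ih2 (hR _ _ _ h3)
  | abs _ _ ih1 ih2 =>
    exact Typing.abs ih1 ih2
  | app _ _ ih1 ih2 =>
    simp only [Tm.map, Tm.map_subst]
    exact Typing.app ih1 ih2
  | conv _ _ h3 ih1 ih2 =>
    exact Typing.conv ih1 ih2 (h3.map f)

theorem Legal.map {Ax : S → S → Prop} {Rl : S → S → S → Prop}
    {Ax' : T → T → Prop} {Rl' : T → T → T → Prop} (f : S → T)
    (hA : ∀ s1 s2, Ax s1 s2 → Ax' (f s1) (f s2))
    (hR : ∀ s1 s2 s3, Rl s1 s2 s3 → Rl' (f s1) (f s2) (f s3))
    {M : Tm S} (h : Legal Ax Rl M) : Legal Ax' Rl' (Tm.map f M) := by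
  obtain ⟨G, _, h | h⟩ := h
  · exact ⟨_, _, Or.inl (h.map f hA hR)⟩
  · exact ⟨_, _, Or.inr (h.map f hA hR)⟩

theorem Normal.of_map (f : S → T) {M : Tm S} (h : Normal (Tm.map f M)) : Normal M :=
  fun N hN => h _ (hN.map f)

theorem ReflTransGen.of_map (f : S → T) {M : Tm S} {N' : Tm T}
    (h : Relation.ReflTransGen Beta (Tm.map f M) N') :
    ∃ N, Relation.ReflTransGen Beta M N ∧ Tm.map f N = N' := by
  induction h with
  | refl => exact ⟨M, Relation.ReflTransGen.refl, rfl⟩
  | tail _ h2 ih =>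
    obtain ⟨N, hN, rfl⟩ := ih
    obtain ⟨N2, hN2, rfl⟩ := Beta.of_map f h2
    exact ⟨N2, hN.tail hN2, rfl⟩

theorem HasNormalForm.of_map (f : S → T) {M : Tm S} (h : HasNormalForm (Tm.map f M)) :
    HasNormalForm M := by
  obtain ⟨N', hred, hn⟩ := h
  obtain ⟨N, hN, rfl⟩ := ReflTransGen.of_map f hred
  exact ⟨N, hN, hn.of_map f⟩

theorem HasInfiniteReduction.map (f : S → T) {M : Tm S} (h : HasInfiniteReduction M) :
    HasInfiniteReduction (Tm.map f M) := by
  obtain ⟨g, h0, hg⟩ := h
  exact ⟨fun n => Tm.map f (g n), by simp [h0], fun n => (hg n).map f⟩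

end Vale.Agent.Lib.P340
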